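import Mathlib

/-!
Averaging the bottom primes of two lifted systems over their translations.

An item of level `v` at a prime `p` gets `lam * (1 - G)` on a coset `C` of `n * p` points, `n = p ^
(v - 1)`, where `G` is the total of the lower levels and `lam` keeps its exact sum `(p - 1) * n`.
Its mean over the `p` translates along one digit is at most `(1 + 4 / p ^ 2) * (1 - 1 / p)` on `C`,
whatever the other items are.  A product of such means over the bottom primes gives the averaged
kernel with every weight exact, up to a bounded factor.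
-/

noncomputable section

namespace Vale.Agent.P028.Full.Lifted

open Finset

/-- The arithmetic of one line. -/
theorem line_arith {p n lam lam' F : ℝ} (hp : 2 ≤ p) (hn : 0 < n) (hlam : 0 ≤ lam)
    (h1 : lam' ≤ 1) (hmass : lam * (p * n - F) = (p - 1) * n) (hF : F ≤ lam' * n + n / p) :
    lam * (p - lam') ≤ (1 + 4 / p ^ 2) * (p - 1) := by
  have hp0 : (0 : ℝ) < p := by linarith
  have hinv : 1 / p ≤ 1 / 2 := one_div_le_one_div_of_le (by norm_num) hp
  set d := p - lam' - 1 / p with hd
  have hd0 : p - 1 - 1 / p ≤ d := by linarith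
  have hd1 : 0 < p - 1 - 1 / p := by linarith
  have hdpos : 0 < d := lt_of_lt_of_le hd1 hd0
  have h2 : n * (lam * d) ≤ n * (p - 1) := by
    have : n * d ≤ p * n - F := by
      rw [hd]
      calc n * (p - lam' - 1 / p) = p * n - (lam' * n + n / p) := by ring
        _ ≤ p * n - F := by linarith
    calc n * (lam * d) = lam * (n * d) := by ring
      _ ≤ lam * (p * n - F) := mul_le_mul_of_nonneg_left this hlam
      _ = n * (p - 1) := by rw [hmass]; ring
  have h3 : lam * d ≤ p - 1 := le_of_mul_le_mul_left h2 hn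
  have h4 : 1 / p ≤ 4 / p ^ 2 * d := by
    refine le_trans ?_ (mul_le_mul_of_nonneg_left hd0 (by positivity))
    rw [div_mul_eq_mul_div, div_le_div_iff₀ hp0 (by positivity)]
    have e : 1 / p * p = 1 := by field_simp
    nlinarith
  have h5 : lam * (p - lam') ≤ lam * ((1 + 4 / p ^ 2) * d) :=
    mul_le_mul_of_nonneg_left (by linarith [show d + 1 / p = p - lam' by rw [hd]; ring,
      show (1 + 4 / p ^ 2) * d = d + 4 / p ^ 2 * d by ring]) hlam
  calc lam * (p - lam') ≤ (1 + 4 / p ^ 2) * (lam * d) := by linarith [h5,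
        show lam * ((1 + 4 / p ^ 2) * d) = (1 + 4 / p ^ 2) * (lam * d) by ring]
    _ ≤ (1 + 4 / p ^ 2) * (p - 1) := mul_le_mul_of_nonneg_left h3 (by positivity)

/-- The sum of an item over a line of its coset, with at most one coset `C1` of the level below. -/
theorem line_sum_le {α : Type*} [DecidableEq α] {p n : ℕ} (hp : 2 ≤ p) (hn : 0 < n)
    {C C1 L : Finset α} {G H : α → ℝ} {lam lam' : ℝ}
    (hlam : 0 ≤ lam) (h0 : 0 ≤ lam') (h1 : lam' ≤ 1)
    (hH : ∀ m ∈ C, 0 ≤ H m) (hH1 : ∀ m ∈ C, H m ≤ 1)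
    (hG : ∀ m ∈ C, G m = H m + lam' * (if m ∈ C1 then 1 - H m else 0))
    (hC : C.card = p * n) (hC1 : (C.filter (· ∈ C1)).card ≤ n)
    (hlow : ∑ m ∈ C, H m ≤ (n : ℝ) / p)
    (hLC : L ⊆ C) (hL : L.card = p) (hmeet : lam' = 0 ∨ ∃ m ∈ L, m ∈ C1)
    (hmass : lam * ∑ m ∈ C, (1 - G m) = ((p : ℝ) - 1) * n) :
    lam * ∑ m ∈ L, (1 - G m) ≤ (1 + 4 / (p : ℝ) ^ 2) * ((p : ℝ) - 1) := by
  have hGH : ∀ m ∈ C, G m ≤ H m + lam' * (if m ∈ C1 then 1 else 0) := fun m hm => by
    rw [hG m hm]
    refine add_le_add le_rfl (mul_le_mul_of_nonneg_left ?_ h0)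
    split
    · linarith [hH m hm]
    · exact le_rfl
  have hG0 : ∀ m ∈ C, lam' * (if m ∈ C1 then 1 else 0) ≤ G m := fun m hm => by
    rw [hG m hm]
    split
    · nlinarith [mul_nonneg (sub_nonneg.2 h1) (hH m hm)]
    · simpa using hH m hm
  have hF : ∑ m ∈ C, G m ≤ lam' * n + (n : ℝ) / p := by
    refine (Finset.sum_le_sum hGH).trans ?_
    rw [Finset.sum_add_distrib, ← Finset.mul_sum, Finset.sum_boole]
    have : ((C.filter (· ∈ C1)).card : ℝ) ≤ n := by exact_mod_cast hC1
    nlinarith [mul_le_mul_of_nonneg_left this h0]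
  have hline : lam' ≤ ∑ m ∈ L, G m := by
    refine le_trans ?_ (Finset.sum_le_sum fun m hm => hG0 m (hLC hm))
    rw [← Finset.mul_sum, Finset.sum_boole]
    rcases hmeet with h | ⟨m, hm, hm1⟩
    · simp [h]
    · refine le_mul_of_one_le_right h0 ?_
      exact_mod_cast Finset.card_pos.2 ⟨m, Finset.mem_filter.2 ⟨hm, hm1⟩⟩
  rw [Finset.sum_sub_distrib, Finset.sum_const, hC, nsmul_eq_mul, mul_one, Nat.cast_mul] at hmass
  refine le_trans ?_ (line_arith (p := (p : ℝ)) (by exact_mod_cast hp) (Nat.cast_pos.2 hn) hlam h1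
    hmass hF)
  rw [Finset.sum_sub_distrib, Finset.sum_const, hL, nsmul_eq_mul, mul_one]
  exact mul_le_mul_of_nonneg_left (by linarith) hlam

/-- Each coordinate has `size` residues and `shifts` translates `tr l j`. -/
structure Shifts where
  size : ℕ → ℕ
  shifts : ℕ → ℕ
  tr : ℕ → ℕ → ℕ → ℕ

/-- The sum over the coordinates below `m` of a function of two configurations, the first one
averaged over the translations of the second. -/
def pairAvg (S : Shifts) : ℕ → ((ℕ → ℕ) → (ℕ → ℕ) → ℝ) → (ℕ → ℕ) → (ℕ → ℕ) → ℝ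
  | 0, F, ω, ω' => F ω ω'
  | m + 1, F, ω, ω' =>
    pairAvg S m (fun ω ω' => ∑ x ∈ Finset.range (S.size m),
      (∑ j ∈ Finset.range (S.shifts m),
        F (Function.update ω m (S.tr m j x)) (Function.update ω' m x)) / (S.shifts m : ℝ)) ω ω'

theorem pairAvg_mono {S : Shifts} {m : ℕ} {F G : (ℕ → ℕ) → (ℕ → ℕ) → ℝ}
    (h : ∀ ω ω', F ω ω' ≤ G ω ω') : ∀ ω ω', pairAvg S m F ω ω' ≤ pairAvg S m G ω ω' := by
  induction m generalizing F G with
  | zero => exact h
  | succ m ih =>
    exact fun ω ω' => ih (fun ω ω' => Finset.sum_le_sum fun x _ =>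
      div_le_div_of_nonneg_right (Finset.sum_le_sum fun j _ => h _ _) (Nat.cast_nonneg _)) ω ω'

theorem pairAvg_const_mul {S : Shifts} {m : ℕ} (a : ℝ) {F : (ℕ → ℕ) → (ℕ → ℕ) → ℝ} :
    ∀ ω ω', pairAvg S m (fun ω ω' => a * F ω ω') ω ω' = a * pairAvg S m F ω ω' := by
  induction m generalizing F with
  | zero => exact fun _ _ => rfl
  | succ m ih =>
    intro ω ω'
    simp only [pairAvg, ← Finset.mul_sum, mul_div_assoc]
    exact ih ω ω'

/-- Two products of kernels, each depending only on the coordinates below: if the translates of the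
first average to at most `b l` and `b l` against the second sums to at most `c l`, the averaged
overlap is at most `∏ c l`. -/
theorem pairAvg_prod_le (S : Shifts) (g g' : ℕ → (ℕ → ℕ) → ℕ → ℝ) (b : ℕ → ℕ → ℝ) (c : ℕ → ℝ)
    (hg : ∀ l ω x, 0 ≤ g l ω x) (hg' : ∀ l ω x, 0 ≤ g' l ω x)
    (hcg : ∀ l ω ω', (∀ i < l, ω i = ω' i) → g l ω = g l ω')
    (hcg' : ∀ l ω ω', (∀ i < l, ω i = ω' i) → g' l ω = g' l ω')
    (hb : ∀ l ω x, (∑ j ∈ Finset.range (S.shifts l), g l ω (S.tr l j x)) / (S.shifts l : ℝ) ≤ b l x)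
    (hc0 : ∀ l, 0 ≤ c l)
    (hc : ∀ l ω, ∑ x ∈ Finset.range (S.size l), b l x * g' l ω x ≤ c l) :
    ∀ m ω ω', pairAvg S m (fun ω ω' => (∏ l ∈ Finset.range m, g l ω (ω l)) *
      ∏ l ∈ Finset.range m, g' l ω' (ω' l)) ω ω' ≤ ∏ l ∈ Finset.range m, c l := by
  intro m
  induction m with
  | zero => intro ω ω'; simp [pairAvg]
  | succ m ih =>
    intro ω ω'
    have hupd : ∀ (k : ℕ → (ℕ → ℕ) → ℕ → ℝ),
        (∀ l ω ω', (∀ i < l, ω i = ω' i) → k l ω = k l ω') → ∀ (z : ℕ → ℕ) (y : ℕ),
        ∏ l ∈ Finset.range (m + 1), k l (Function.update z m y) (Function.update z m y l) =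
          (∏ l ∈ Finset.range m, k l z (z l)) * k m z y := by
      intro k hk z y
      rw [Finset.prod_range_succ, Function.update_self,
        hk m _ z fun i hi => Function.update_of_ne (by omega) _ _]
      congr 1
      refine Finset.prod_congr rfl fun l hl => ?_
      have hlm := Finset.mem_range.1 hl
      rw [Function.update_of_ne hlm.ne, hk l _ z fun i hi => Function.update_of_ne (by omega) _ _]
    simp only [pairAvg, hupd g hcg, hupd g' hcg']
    refine le_trans (pairAvg_mono (G := fun ω ω' => c m *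
      ((∏ l ∈ Finset.range m, g l ω (ω l)) * ∏ l ∈ Finset.range m, g' l ω' (ω' l)))
      (fun z z' => ?_) ω ω') ?_
    · set P := ∏ l ∈ Finset.range m, g l z (z l)
      set P' := ∏ l ∈ Finset.range m, g' l z' (z' l)
      have hP : 0 ≤ P := Finset.prod_nonneg fun l _ => hg l _ _
      have hP' : 0 ≤ P' := Finset.prod_nonneg fun l _ => hg' l _ _
      calc ∑ x ∈ Finset.range (S.size m), (∑ j ∈ Finset.range (S.shifts m),
              P * g m z (S.tr m j x) * (P' * g' m z' x)) / (S.shifts m : ℝ)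
          = P * P' * ∑ x ∈ Finset.range (S.size m),
              (∑ j ∈ Finset.range (S.shifts m), g m z (S.tr m j x)) / (S.shifts m : ℝ) *
                g' m z' x := by
            rw [Finset.mul_sum]
            refine Finset.sum_congr rfl fun x _ => ?_
            rw [← mul_div_right_comm, ← mul_div_assoc, Finset.sum_mul, Finset.mul_sum]
            congr 1
            exact Finset.sum_congr rfl fun j _ => by ring
        _ ≤ P * P' * ∑ x ∈ Finset.range (S.size m), b m x * g' m z' x :=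
            mul_le_mul_of_nonneg_left (Finset.sum_le_sum fun x _ =>
              mul_le_mul_of_nonneg_right (hb m z x) (hg' m _ _)) (mul_nonneg hP hP')
        _ ≤ P * P' * c m := mul_le_mul_of_nonneg_left (hc m z') (mul_nonneg hP hP')
        _ = c m * (P * P') := mul_comm _ _
    · rw [pairAvg_const_mul, Finset.prod_range_succ, mul_comm (∏ l ∈ Finset.range m, c l)]
      exact mul_le_mul_of_nonneg_left (ih ω ω') (hc0 m)

theorem sum_four_div_sq_le (N : ℕ) :
    ∑ k ∈ Finset.range N, (4 : ℝ) / ((k : ℝ) + 2) ^ 2 ≤ 4 - 4 / ((N : ℝ) + 1) := by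
  induction N with
  | zero => norm_num
  | succ N ih =>
    rw [Finset.sum_range_succ]
    push_cast
    have h1 : (0 : ℝ) < (N : ℝ) + 1 := by positivity
    have h2 : (4 : ℝ) / ((N : ℝ) + 2) ^ 2 ≤ 4 / ((N : ℝ) + 1) - 4 / ((N : ℝ) + 1 + 1) := by
      rw [div_sub_div _ _ h1.ne' (by positivity), div_le_div_iff₀ (by positivity) (by positivity)]
      nlinarith
    linarith

/-- The product of the line losses is bounded. -/
theorem prod_one_add_le (s : Finset ℕ) (hs : ∀ p ∈ s, 2 ≤ p) :
    ∏ p ∈ s, (1 + 4 / (p : ℝ) ^ 2) ≤ Real.exp 4 := by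
  refine (Finset.prod_le_prod (fun p _ => by positivity)
    (g := fun p : ℕ => Real.exp (4 / (p : ℝ) ^ 2)) fun p _ => ?_).trans ?_
  · rw [add_comm]
    exact Real.add_one_le_exp _
  rw [← Real.exp_sum]
  refine Real.exp_le_exp.2 ?_
  calc ∑ p ∈ s, (4 : ℝ) / (p : ℝ) ^ 2
      = ∑ k ∈ (s.image (fun p : ℕ => p - 2) : Finset ℕ), (4 : ℝ) / (((k : ℕ) : ℝ) + 2) ^ 2 := by
        rw [Finset.sum_image]
        · refine Finset.sum_congr rfl fun p hp => ?_
          rw [Nat.cast_sub (hs p hp)]
          simp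
        · intro a ha b hb h
          have := hs a ha
          have := hs b hb
          simp only at h
          omega
    _ ≤ ∑ k ∈ Finset.range (s.sup id + 1), (4 : ℝ) / ((k : ℝ) + 2) ^ 2 := by
        refine Finset.sum_le_sum_of_subset_of_nonneg (fun k hk => ?_) fun k _ _ => by positivity
        obtain ⟨p, hp, rfl⟩ := Finset.mem_image.1 hk
        have : p ≤ s.sup id := Finset.le_sup (f := id) hp
        simp only [Finset.mem_range]
        omega
    _ ≤ 4 - 4 / (((s.sup id + 1 : ℕ) : ℝ) + 1) := sum_four_div_sq_le _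
    _ ≤ 4 := sub_le_self _ (by positivity)

end Vale.Agent.P028.Full.Lifted
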