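import Mathlib

/-!
One prime of the lifted exclusive system.

At a prime `p` with ambient exponent `a` an item `k` has an exponent `v k ≤ a`, a weight `f k` and
the coset `{y : p ^ (a - v k) ∣ y - c k}` of `p ^ v k` residues modulo `p ^ a`.  The exponents are
filled upwards: `H (u + 1) = H u + F u * lam u * (1 - H u)`, where `F u` is the weight of the items of
exponent `u` and `lam u` makes the increment of each coset exactly `φ (p ^ u)`.  The total never
exceeds `1`, the construction commutes with translations, and two such systems have correlation at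
most the averaged one times `p / (p - 1)` at unequal exponents.
-/

noncomputable section

namespace Vale.Agent.P028.Full.Lifted

open Finset

variable {ι κ : Type*}

/-- `x` and `y` lie in one coset of level `u`: `p ^ (a - u) ∣ x - y`, as `0` or `1`. -/
def same (p a u : ℕ) (x y : ℤ) : ℝ := if ((p ^ (a - u) : ℕ) : ℤ) ∣ x - y then 1 else 0

theorem same_nonneg (p a u : ℕ) (x y : ℤ) : 0 ≤ same p a u x y := by
  unfold same; split_ifs <;> norm_num

theorem same_le_one (p a u : ℕ) (x y : ℤ) : same p a u x y ≤ 1 := by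
  unfold same; split_ifs <;> norm_num

theorem same_comm (p a u : ℕ) (x y : ℤ) : same p a u x y = same p a u y x := by
  unfold same
  rw [show x - y = -(y - x) by ring]
  simp only [dvd_neg]

theorem same_add (p a u : ℕ) (x y t : ℤ) : same p a u x (y + t) = same p a u (x - t) y := by
  unfold same
  rw [show x - (y + t) = x - t - y by ring]

theorem same_sub_sub (p a u : ℕ) (x y t : ℤ) : same p a u (x - t) (y - t) = same p a u x y := by
  unfold same
  rw [show x - t - (y - t) = x - y by ring]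

theorem same_congr {p a u : ℕ} {x x' : ℤ} (h : same p a u x x' = 1) (y : ℤ) :
    same p a u x y = same p a u x' y := by
  unfold same at h ⊢
  have hd : ((p ^ (a - u) : ℕ) : ℤ) ∣ x - x' := by
    by_contra hd
    rw [if_neg hd] at h
    exact zero_ne_one h
  congr 1
  rw [show x - y = (x - x') + (x' - y) by ring, dvd_add_right hd]

/-- A residue class modulo `m` has `q` members below `m * q`. -/
theorem card_filter_dvd_sub (m q : ℕ) (hm : 0 < m) (c : ℤ) :
    ((range (m * q)).filter (fun y : ℕ => (m : ℤ) ∣ (y : ℤ) - c)).card = q := by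
  have hm0 : (m : ℤ) ≠ 0 := by exact_mod_cast hm.ne'
  set r := (c % (m : ℤ)).toNat with hr
  have hr' : (r : ℤ) = c % m := Int.toNat_of_nonneg (Int.emod_nonneg _ hm0)
  have hrm : r < m := by
    have := Int.emod_lt_of_pos c (show (0 : ℤ) < m by exact_mod_cast hm)
    omega
  have he : (range (m * q)).filter (fun y : ℕ => (m : ℤ) ∣ (y : ℤ) - c) =
      (range q).image (fun i => r + m * i) := by
    ext y
    simp only [mem_filter, mem_range, mem_image]
    constructor
    · rintro ⟨hy, hd⟩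
      have hyr : y % m = r := by
        have h1 : (y : ℤ) % m = c % m := (Int.emod_eq_emod_iff_emod_sub_eq_zero.2
          (Int.emod_eq_zero_of_dvd hd))
        rw [← hr', ← Int.natCast_emod] at h1
        exact_mod_cast h1
      refine ⟨y / m, Nat.div_lt_of_lt_mul hy, ?_⟩
      have := Nat.mod_add_div y m
      omega
    · rintro ⟨i, hi, rfl⟩
      refine ⟨?_, ?_⟩
      · have : m * (i + 1) ≤ m * q := Nat.mul_le_mul_left m hi
        rw [Nat.mul_add, Nat.mul_one] at this
        omega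
      · push_cast
        rw [hr', show c % (m : ℤ) + m * i - c = (m : ℤ) * i - (c - c % m) by ring]
        exact (dvd_mul_right _ _).sub (Int.dvd_self_sub_emod)
  rw [he, card_image_of_injective, card_range]
  intro i j hij
  exact Nat.eq_of_mul_eq_mul_left hm (by simpa using hij)

theorem sum_same {p a u : ℕ} (hp : p.Prime) (hu : u ≤ a) (c : ℤ) :
    ∑ y ∈ range (p ^ a), same p a u (y : ℤ) c = (p : ℝ) ^ u := by
  unfold same
  rw [sum_boole, show p ^ a = p ^ (a - u) * p ^ u by rw [← pow_add, Nat.sub_add_cancel hu],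
    card_filter_dvd_sub _ _ (pow_pos hp.pos _)]
  push_cast
  rfl

/-- Averaging over the cosets of a level: `∑ K (class sum of X) = p ^ u ∑ K X`. -/
theorem sum_mul_classSum {p a u : ℕ} (hp : p.Prime) (hu : u ≤ a) (K X : ℤ → ℝ)
    (hK : ∀ x y, same p a u x y = 1 → K x = K y) :
    ∑ x ∈ range (p ^ a), K (x : ℤ) * ∑ y ∈ range (p ^ a), same p a u (x : ℤ) y * X y =
      (p : ℝ) ^ u * ∑ y ∈ range (p ^ a), K (y : ℤ) * X y := by
  simp only [mul_sum]
  rw [sum_comm]
  refine sum_congr rfl fun y _ => ?_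
  have h : ∀ x : ℤ, K x * (same p a u x y * X y) = same p a u x y * (K y * X y) := by
    intro x
    by_cases hs : same p a u x y = 1
    · rw [hK x y hs]; ring
    · have : same p a u x y = 0 := by
        unfold same at hs ⊢
        split_ifs with hd
        · rw [if_pos hd] at hs; exact absurd rfl hs
        · rfl
      rw [this]; ring
  simp only [h, ← sum_mul, sum_same hp hu]

theorem sum_totient_pow {p : ℕ} (hp : p.Prime) (u : ℕ) :
    ∑ w ∈ range (u + 1), ((p ^ w).totient : ℝ) = (p : ℝ) ^ u := by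
  have h := Nat.sum_totient (p ^ u)
  rw [Nat.sum_divisors_prime_pow hp] at h
  exact_mod_cast h

/-- The items of one prime. -/
structure Loc (ι : Type*) where
  p : ℕ
  a : ℕ
  T : Finset ι
  v : ι → ℕ
  c : ι → ℤ
  f : ι → ℝ

namespace Loc

variable (Q : Loc ι)

/-- The weight of the items of exponent `u` at `x`. -/
def F (u : ℕ) (x : ℤ) : ℝ :=
  ∑ k ∈ Q.T.filter (fun k => Q.v k = u), Q.f k * same Q.p Q.a u x (Q.c k)

/-- The total of the exponents below `u`. -/
def H : ℕ → ℤ → ℝ
  | 0, _ => 0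
  | u + 1, x => H u x + Q.F u x * (((Q.p ^ u).totient : ℝ) /
      ((Q.p : ℝ) ^ u - ∑ y ∈ range (Q.p ^ Q.a), same Q.p Q.a u x y * H u y)) * (1 - H u x)

/-- The mass of the exponents below `u` in the coset of level `u` of `x`. -/
def below (u : ℕ) (x : ℤ) : ℝ :=
  ∑ y ∈ range (Q.p ^ Q.a), same Q.p Q.a u x y * Q.H u y

/-- The factor which makes each increment exact. -/
def lam (u : ℕ) (x : ℤ) : ℝ := ((Q.p ^ u).totient : ℝ) / ((Q.p : ℝ) ^ u - Q.below u x)

/-- The sub-indicator of the item `k`, per unit of its weight. -/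
def ker (k : ι) (x : ℤ) : ℝ :=
  same Q.p Q.a (Q.v k) x (Q.c k) * Q.lam (Q.v k) x * (1 - Q.H (Q.v k) x)

theorem H_succ (u : ℕ) (x : ℤ) : Q.H (u + 1) x = Q.H u x + Q.F u x * Q.lam u x * (1 - Q.H u x) := rfl

theorem H_succ_sum (u : ℕ) (x : ℤ) :
    Q.H (u + 1) x = Q.H u x + ∑ k ∈ Q.T.filter (fun k => Q.v k = u), Q.f k * Q.ker k x := by
  rw [Q.H_succ, F, sum_mul, sum_mul]
  congr 1
  refine sum_congr rfl fun k hk => ?_
  rw [ker, (mem_filter.1 hk).2]
  ring

theorem H_eq_sum (u : ℕ) (x : ℤ) :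
    Q.H u x = ∑ k ∈ Q.T.filter (fun k => Q.v k < u), Q.f k * Q.ker k x := by
  classical
  induction u with
  | zero => simp [H]
  | succ u ih =>
    rw [Q.H_succ_sum, ih, ← sum_union]
    · refine sum_congr ?_ fun _ _ => rfl
      ext k
      simp only [mem_union, mem_filter]
      constructor
      · rintro (⟨h, h'⟩ | ⟨h, h'⟩) <;> exact ⟨h, by omega⟩
      · rintro ⟨h, h'⟩
        rcases Nat.lt_or_ge (Q.v k) u with h'' | h''
        · exact .inl ⟨h, h''⟩
        · exact .inr ⟨h, by omega⟩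
    · rw [disjoint_filter]
      intro k _ h h'
      omega

theorem F_congr {u : ℕ} {x y : ℤ} (h : same Q.p Q.a u x y = 1) : Q.F u x = Q.F u y :=
  sum_congr rfl fun k _ => by rw [same_congr h]

theorem below_congr {u : ℕ} {x y : ℤ} (h : same Q.p Q.a u x y = 1) :
    Q.below u x = Q.below u y :=
  sum_congr rfl fun k _ => by rw [same_congr h]

theorem lam_congr {u : ℕ} {x y : ℤ} (h : same Q.p Q.a u x y = 1) : Q.lam u x = Q.lam u y := by
  rw [lam, lam, Q.below_congr h]

/-- The hypotheses at one prime. -/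
structure Ok : Prop where
  prime : Q.p.Prime
  le : ∀ k ∈ Q.T, Q.v k ≤ Q.a
  nonneg : ∀ k ∈ Q.T, 0 ≤ Q.f k
  total : ∀ u, ∑ k ∈ Q.T.filter (fun k => Q.v k = u), Q.f k ≤ 1

variable {Q}

theorem Ok.F_nonneg (hQ : Q.Ok) (u : ℕ) (x : ℤ) : 0 ≤ Q.F u x :=
  sum_nonneg fun k hk => mul_nonneg (hQ.nonneg k (mem_filter.1 hk).1) (same_nonneg ..)

theorem Ok.F_le_one (hQ : Q.Ok) (u : ℕ) (x : ℤ) : Q.F u x ≤ 1 :=
  le_trans (sum_le_sum fun k hk =>
    mul_le_of_le_one_right (hQ.nonneg k (mem_filter.1 hk).1) (same_le_one ..)) (hQ.total u)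

/-- The invariants: `0 ≤ H u ≤ 1`, the total below `u` leaves room for `φ (p ^ u)`, and the items
below `u` have exact sums. -/
theorem Ok.inv (hQ : Q.Ok) {u : ℕ} (hu : u ≤ Q.a + 1) :
    (∀ x, 0 ≤ Q.H u x ∧ Q.H u x ≤ 1) ∧
      (∀ k ∈ Q.T, Q.v k < u → ∑ y ∈ range (Q.p ^ Q.a), Q.ker k y = ((Q.p ^ Q.v k).totient : ℝ)) := by
  induction u with
  | zero => exact ⟨fun x => ⟨le_rfl, zero_le_one⟩, fun k _ h => absurd h (Nat.not_lt_zero _)⟩
  | succ u ih =>
    obtain ⟨hH, hsum⟩ := ih (by omega)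
    have hua : u ≤ Q.a := by omega
    have hp := hQ.prime
    have hphi : (0 : ℝ) < (Q.p ^ u).totient := by
      exact_mod_cast Nat.totient_pos.2 (pow_pos hp.pos u)
    have htot : ∑ y ∈ range (Q.p ^ Q.a), Q.H u y ≤ ∑ w ∈ range u, ((Q.p ^ w).totient : ℝ) := by
      calc ∑ y ∈ range (Q.p ^ Q.a), Q.H u y
          = ∑ k ∈ Q.T.filter (fun k => Q.v k < u), Q.f k * ((Q.p ^ Q.v k).totient : ℝ) := by
            simp only [Q.H_eq_sum u]
            rw [sum_comm]
            refine sum_congr rfl fun k hk => ?_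
            rw [← mul_sum, hsum k (mem_filter.1 hk).1 (mem_filter.1 hk).2]
        _ = ∑ w ∈ range u, (∑ k ∈ Q.T.filter (fun k => Q.v k = w), Q.f k) *
              ((Q.p ^ w).totient : ℝ) := by
            rw [← sum_fiberwise_of_maps_to (g := Q.v) (t := range u)
              (fun k hk => mem_range.2 (mem_filter.1 hk).2)]
            refine sum_congr rfl fun w hw => ?_
            rw [sum_mul, filter_filter]
            refine sum_congr ?_ fun k hk => by rw [(mem_filter.1 hk).2]
            refine filter_congr fun k _ => ?_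
            constructor
            · exact fun h => h.2
            · exact fun h => ⟨h ▸ mem_range.1 hw, h⟩
        _ ≤ _ := sum_le_sum fun w _ => mul_le_of_le_one_left (Nat.cast_nonneg _) (hQ.total w)
    have hbelow : ∀ x, Q.below u x ≤ (Q.p : ℝ) ^ u - (Q.p ^ u).totient := by
      intro x
      have h1 : Q.below u x ≤ ∑ y ∈ range (Q.p ^ Q.a), Q.H u y :=
        sum_le_sum fun y _ => mul_le_of_le_one_left (hH y).1 (same_le_one ..)
      have h2 := sum_totient_pow hp u
      rw [sum_range_succ] at h2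
      linarith
    have hlam : ∀ x, 0 ≤ Q.lam u x ∧ Q.lam u x ≤ 1 := fun x =>
      ⟨div_nonneg hphi.le (by linarith [hbelow x]),
        (div_le_one (by linarith [hbelow x])).2 (by linarith [hbelow x])⟩
    refine ⟨fun x => ?_, fun k hk hlt => ?_⟩
    · have hA0 := mul_nonneg (hQ.F_nonneg u x) (hlam x).1
      have hA1 := mul_le_one₀ (hQ.F_le_one u x) (hlam x).1 (hlam x).2
      rw [Q.H_succ]
      constructor <;> nlinarith [hH x]
    rcases Nat.lt_or_ge (Q.v k) u with h | h
    · exact hsum k hk h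
    have hvk : Q.v k = u := by omega
    set K : ℤ → ℝ := fun x => same Q.p Q.a u x (Q.c k) * Q.lam u x with hKdef
    have hK : ∀ x y, same Q.p Q.a u x y = 1 → K x = K y := fun x y hxy => by
      simp only [hKdef, same_congr hxy, Q.lam_congr hxy]
    have havg := sum_mul_classSum hp hua K (Q.H u) hK
    have hP : (0 : ℝ) < (Q.p : ℝ) ^ u := pow_pos (by exact_mod_cast hp.pos) u
    have hkey : (Q.p : ℝ) ^ u * ∑ y ∈ range (Q.p ^ Q.a), Q.ker k y =
        (Q.p : ℝ) ^ u * ((Q.p ^ u).totient : ℝ) := by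
      calc (Q.p : ℝ) ^ u * ∑ y ∈ range (Q.p ^ Q.a), Q.ker k y
          = (Q.p : ℝ) ^ u * ∑ y ∈ range (Q.p ^ Q.a), K y -
              (Q.p : ℝ) ^ u * ∑ y ∈ range (Q.p ^ Q.a), K y * Q.H u y := by
            rw [← mul_sub, ← sum_sub_distrib]
            refine congrArg _ (sum_congr rfl fun y _ => ?_)
            rw [ker, hvk, hKdef]
            ring
        _ = ∑ x ∈ range (Q.p ^ Q.a),
              same Q.p Q.a u x (Q.c k) * ((Q.p ^ u).totient : ℝ) := by
            rw [← havg, mul_sum, ← sum_sub_distrib]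
            refine sum_congr rfl fun x _ => ?_
            have hne : (Q.p : ℝ) ^ u - Q.below u x ≠ 0 := by
              linarith [hbelow (x : ℤ)]
            change (Q.p : ℝ) ^ u * K x - K x * Q.below u x = _
            rw [hKdef]
            simp only [lam]
            field_simp
        _ = _ := by rw [← sum_mul, sum_same hp hua]
    rw [hvk]
    exact mul_left_cancel₀ hP.ne' hkey

theorem Ok.H_nonneg (hQ : Q.Ok) {u : ℕ} (hu : u ≤ Q.a + 1) (x : ℤ) : 0 ≤ Q.H u x :=
  ((hQ.inv hu).1 x).1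

theorem Ok.H_le_one (hQ : Q.Ok) {u : ℕ} (hu : u ≤ Q.a + 1) (x : ℤ) : Q.H u x ≤ 1 :=
  ((hQ.inv hu).1 x).2

/-- Each item keeps exactly `φ (p ^ v)`. -/
theorem Ok.sum_ker (hQ : Q.Ok) {k : ι} (hk : k ∈ Q.T) :
    ∑ y ∈ range (Q.p ^ Q.a), Q.ker k y = ((Q.p ^ Q.v k).totient : ℝ) :=
  (hQ.inv le_rfl).2 k hk (Nat.lt_succ_of_le (hQ.le k hk))

/-- The total is `H (a + 1)`. -/
theorem Ok.sum_mul_ker (hQ : Q.Ok) (x : ℤ) :
    ∑ k ∈ Q.T, Q.f k * Q.ker k x = Q.H (Q.a + 1) x := by
  rw [Q.H_eq_sum, filter_true_of_mem fun k hk => Nat.lt_succ_of_le (hQ.le k hk)]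

theorem Ok.below_le (hQ : Q.Ok) {u : ℕ} (hu : u ≤ Q.a) (x : ℤ) :
    Q.below u x + (Q.p ^ u).totient ≤ (Q.p : ℝ) ^ u := by
  have h2 := sum_totient_pow hQ.prime u
  rw [sum_range_succ] at h2
  have h1 : Q.below u x ≤ ∑ y ∈ range (Q.p ^ Q.a), Q.H u y :=
    sum_le_sum fun y _ => mul_le_of_le_one_left (hQ.H_nonneg (by omega) y) (same_le_one ..)
  have h3 : ∑ y ∈ range (Q.p ^ Q.a), Q.H u y ≤ ∑ w ∈ range u, ((Q.p ^ w).totient : ℝ) := by
    calc ∑ y ∈ range (Q.p ^ Q.a), Q.H u y
        = ∑ k ∈ Q.T.filter (fun k => Q.v k < u), Q.f k * ((Q.p ^ Q.v k).totient : ℝ) := by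
          simp only [Q.H_eq_sum u]
          rw [sum_comm]
          refine sum_congr rfl fun k hk => ?_
          rw [← mul_sum, hQ.sum_ker (mem_filter.1 hk).1]
      _ = ∑ w ∈ range u, (∑ k ∈ (Q.T.filter (fun k => Q.v k < u)).filter (fun k => Q.v k = w),
            Q.f k) * ((Q.p ^ w).totient : ℝ) := by
          rw [← sum_fiberwise_of_maps_to (g := Q.v) (t := range u)
            (fun k hk => mem_range.2 (mem_filter.1 hk).2)]
          refine sum_congr rfl fun w _ => ?_
          rw [sum_mul]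
          exact sum_congr rfl fun k hk => by rw [(mem_filter.1 hk).2]
      _ ≤ _ := sum_le_sum fun w _ => mul_le_of_le_one_left (Nat.cast_nonneg _) (le_trans
            (sum_le_sum_of_subset_of_nonneg (fun k hk => mem_filter.2
              ⟨(mem_filter.1 (mem_filter.1 hk).1).1, (mem_filter.1 hk).2⟩)
              (fun k hk _ => hQ.nonneg k (mem_filter.1 hk).1)) (hQ.total w))
  linarith

theorem Ok.lam_mem (hQ : Q.Ok) {u : ℕ} (hu : u ≤ Q.a) (x : ℤ) :
    0 ≤ Q.lam u x ∧ Q.lam u x ≤ 1 := by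
  have h := hQ.below_le hu x
  have hphi : (0 : ℝ) < (Q.p ^ u).totient := by
    exact_mod_cast Nat.totient_pos.2 (pow_pos hQ.prime.pos u)
  exact ⟨div_nonneg hphi.le (by linarith), (div_le_one (by linarith)).2 (by linarith)⟩

theorem Ok.ker_nonneg (hQ : Q.Ok) {k : ι} (hk : k ∈ Q.T) (x : ℤ) : 0 ≤ Q.ker k x :=
  mul_nonneg (mul_nonneg (same_nonneg ..) (hQ.lam_mem (hQ.le k hk) x).1)
    (sub_nonneg.2 (hQ.H_le_one (Nat.le_succ_of_le (hQ.le k hk)) x))

theorem Ok.ker_le_same (hQ : Q.Ok) {k : ι} (hk : k ∈ Q.T) (x : ℤ) :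
    Q.ker k x ≤ same Q.p Q.a (Q.v k) x (Q.c k) := by
  have h1 := hQ.lam_mem (hQ.le k hk) x
  have h2 := hQ.H_nonneg (Nat.le_succ_of_le (hQ.le k hk)) x
  have h3 := hQ.H_le_one (Nat.le_succ_of_le (hQ.le k hk)) x
  rw [ker, mul_assoc]
  exact mul_le_of_le_one_right (same_nonneg ..)
    (mul_le_one₀ h1.2 (sub_nonneg.2 h3) (sub_le_self _ h2))

theorem same_of_dvd {p a : ℕ} {x y : ℤ} (h : ((p ^ a : ℕ) : ℤ) ∣ x - y) (u : ℕ) :
    same p a u x y = 1 :=
  if_pos ((Int.natCast_dvd_natCast.2 (pow_dvd_pow p (Nat.sub_le a u))).trans h)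

theorem H_congr {x y : ℤ} (h : ((Q.p ^ Q.a : ℕ) : ℤ) ∣ x - y) (u : ℕ) : Q.H u x = Q.H u y := by
  induction u with
  | zero => rfl
  | succ u ih => rw [H_succ, H_succ, ih, Q.F_congr (same_of_dvd h u), Q.lam_congr (same_of_dvd h u)]

theorem ker_congr {x y : ℤ} (h : ((Q.p ^ Q.a : ℕ) : ℤ) ∣ x - y) (k : ι) : Q.ker k x = Q.ker k y := by
  rw [ker, ker, Q.H_congr h, Q.lam_congr (same_of_dvd h _), same_congr (same_of_dvd h _)]

end Loc

/-- A translation does not change the sum of a periodic function over a period. -/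
theorem sum_range_shift {M : ℕ} (hM : 0 < M) (g : ℤ → ℝ)
    (hg : ∀ x y, (M : ℤ) ∣ x - y → g x = g y) (t : ℤ) :
    ∑ y ∈ range M, g ((y : ℤ) - t) = ∑ y ∈ range M, g y := by
  have hM' : (M : ℤ) ≠ 0 := by exact_mod_cast hM.ne'
  have hmod : ∀ z : ℤ, (((z % (M : ℤ)).toNat : ℕ) : ℤ) = z % M := fun z =>
    Int.toNat_of_nonneg (Int.emod_nonneg _ hM')
  have hlt : ∀ z : ℤ, (z % (M : ℤ)).toNat < M := fun z => by
    have h1 := Int.emod_lt_of_pos z (show (0 : ℤ) < M by exact_mod_cast hM)
    have h2 := hmod z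
    omega
  refine sum_nbij' (fun y => (((y : ℤ) - t) % (M : ℤ)).toNat)
    (fun y => (((y : ℤ) + t) % (M : ℤ)).toNat) ?_ ?_ ?_ ?_ ?_
  · exact fun y _ => mem_range.2 (hlt _)
  · exact fun y _ => mem_range.2 (hlt _)
  · intro y hy
    have hy' := mem_range.1 hy
    rw [hmod, Int.emod_add_emod, sub_add_cancel,
      Int.emod_eq_of_lt (by omega) (by omega), Int.toNat_natCast]
  · intro y hy
    have hy' := mem_range.1 hy
    rw [hmod, Int.emod_sub_emod, add_sub_cancel_right,
      Int.emod_eq_of_lt (by omega) (by omega), Int.toNat_natCast]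
  · intro y _
    rw [hmod]
    exact hg _ _ (Int.dvd_self_sub_emod)

namespace Loc

variable {Q : Loc ι}

/-- The translated items. -/
def shift (Q : Loc ι) (t : ℤ) : Loc ι := { Q with c := fun k => Q.c k + t }

theorem F_shift (t : ℤ) (u : ℕ) (x : ℤ) : (Q.shift t).F u x = Q.F u (x - t) := by
  refine sum_congr rfl fun k _ => ?_
  change Q.f k * same Q.p Q.a u x (Q.c k + t) = _
  rw [same_add]

theorem H_shift (hp : 0 < Q.p) (t : ℤ) (u : ℕ) (x : ℤ) :
    (Q.shift t).H u x = Q.H u (x - t) := by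
  induction u generalizing x with
  | zero => rfl
  | succ u ih =>
    have hB : (Q.shift t).below u x = Q.below u (x - t) := by
      have hg : ∀ z z', ((Q.p ^ Q.a : ℕ) : ℤ) ∣ z - z' →
          same Q.p Q.a u (x - t) z * Q.H u z = same Q.p Q.a u (x - t) z' * Q.H u z' := by
        intro z z' h
        rw [Q.H_congr h, same_comm _ _ _ (x - t), same_congr (same_of_dvd h u),
          same_comm _ _ _ z']
      refine Eq.trans ?_ (sum_range_shift (pow_pos hp _) _ hg t)
      refine sum_congr rfl fun y _ => ?_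
      rw [ih, same_sub_sub]
      rfl
    rw [H_succ, H_succ, ih x, lam, lam, hB, F_shift]
    rfl

theorem lam_shift (hp : 0 < Q.p) (t : ℤ) (u : ℕ) (x : ℤ) :
    (Q.shift t).lam u x = Q.lam u (x - t) := by
  have hg : ∀ z z', ((Q.p ^ Q.a : ℕ) : ℤ) ∣ z - z' →
      same Q.p Q.a u (x - t) z * Q.H u z = same Q.p Q.a u (x - t) z' * Q.H u z' := by
    intro z z' h
    rw [Q.H_congr h, same_comm _ _ _ (x - t), same_congr (same_of_dvd h u), same_comm _ _ _ z']
  have hB : (Q.shift t).below u x = Q.below u (x - t) := by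
    refine Eq.trans ?_ (sum_range_shift (pow_pos hp _) _ hg t)
    refine sum_congr rfl fun y _ => ?_
    rw [H_shift hp, same_sub_sub]
    rfl
  rw [lam, lam, hB]
  rfl

theorem ker_shift (hp : 0 < Q.p) (t : ℤ) (k : ι) (x : ℤ) :
    (Q.shift t).ker k x = Q.ker k (x - t) := by
  rw [ker, ker, lam_shift hp, H_shift hp]
  change same Q.p Q.a (Q.v k) x (Q.c k + t) * _ * _ = _
  rw [same_add]
  rfl

end Loc

/-- The two-system weight of an item of exponent `v` at `c` and one of exponent `v'` at `c'`. -/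
def locW (p a v v' : ℕ) (c c' : ℤ) : ℝ :=
  same p a (max v v') c c' *
    if v = v' then ((p ^ v).totient : ℝ) ^ 2 / (p : ℝ) ^ v else ((p ^ min v v').totient : ℝ)

namespace Loc

variable {Q : Loc ι} {R : Loc κ}

/-- The items below a level, tested against one coset of that level. -/
theorem Ok.sum_same_mul_ker_le (hR : R.Ok) {u : ℕ} {k : κ} (hk : k ∈ R.T) (hv : R.v k ≤ u) (c : ℤ) :
    ∑ y ∈ range (R.p ^ R.a), same R.p R.a u (y : ℤ) c * R.ker k y ≤
      same R.p R.a u c (R.c k) * ((R.p ^ R.v k).totient : ℝ) := by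
  rw [← hR.sum_ker hk, mul_sum]
  refine sum_le_sum fun y _ => ?_
  by_cases h : same R.p R.a (R.v k) (y : ℤ) (R.c k) = 1
  · refine le_of_eq ?_
    have h' : same R.p R.a u (y : ℤ) (R.c k) = 1 := by
      unfold same at h ⊢
      split_ifs at h with hd
      · exact if_pos ((Int.natCast_dvd_natCast.2 (pow_dvd_pow R.p (by omega))).trans hd)
      · exact absurd h zero_ne_one
    rw [same_congr h' c, same_comm R.p R.a u (R.c k) c]
  · have h0 : same R.p R.a (R.v k) (y : ℤ) (R.c k) = 0 := by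
      unfold same at h ⊢
      split_ifs with hd
      · rw [if_pos hd] at h; exact absurd rfl h
      · rfl
    have : R.ker k y = 0 := by rw [ker, h0]; ring
    rw [this, mul_zero, mul_zero]

/-- One level of the correlation of two systems. -/
theorem Ok.corr_step (hQ : Q.Ok) (hR : R.Ok) (hp : R.p = Q.p) (ha : R.a = Q.a) {u : ℕ}
    (hu : u ≤ Q.a) :
    ∑ y ∈ range (Q.p ^ Q.a), Q.H (u + 1) y * R.H (u + 1) y ≤
      (∑ y ∈ range (Q.p ^ Q.a), Q.H u y * R.H u y) +
        (((Q.p ^ u).totient : ℝ) / (Q.p : ℝ) ^ u) ^ 2 *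
          (∑ y ∈ range (Q.p ^ Q.a), Q.F u y * R.F u y) +
        (∑ y ∈ range (Q.p ^ Q.a), Q.F u y * R.H u y) +
        ∑ y ∈ range (Q.p ^ Q.a), R.F u y * Q.H u y := by
  set P : ℝ := (Q.p : ℝ) ^ u with hP
  set φ : ℝ := ((Q.p ^ u).totient : ℝ) with hφ
  have hP0 : 0 < P := pow_pos (by exact_mod_cast hQ.prime.pos) u
  have hφ0 : 0 < φ := by rw [hφ]; exact_mod_cast Nat.totient_pos.2 (pow_pos hQ.prime.pos u)
  have hu' : u ≤ R.a := ha ▸ hu
  set A : ℤ → ℝ := fun x => Q.F u x * Q.lam u x with hA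
  set B : ℤ → ℝ := fun x => R.F u x * R.lam u x with hB
  have hA01 : ∀ x, 0 ≤ A x ∧ A x ≤ 1 := fun x =>
    ⟨mul_nonneg (hQ.F_nonneg u x) (hQ.lam_mem hu x).1,
      mul_le_one₀ (hQ.F_le_one u x) (hQ.lam_mem hu x).1 (hQ.lam_mem hu x).2⟩
  have hB01 : ∀ x, 0 ≤ B x ∧ B x ≤ 1 := fun x =>
    ⟨mul_nonneg (hR.F_nonneg u x) (hR.lam_mem hu' x).1,
      mul_le_one₀ (hR.F_le_one u x) (hR.lam_mem hu' x).1 (hR.lam_mem hu' x).2⟩
  set K : ℤ → ℝ := fun x => A x * B x with hK
  have hKc : ∀ x y, same Q.p Q.a u x y = 1 → K x = K y := by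
    intro x y h
    have h' : same R.p R.a u x y = 1 := by rw [hp, ha]; exact h
    simp only [hK, hA, hB, Q.F_congr h, Q.lam_congr h, R.F_congr h', R.lam_congr h']
  have hcross : P * (∑ y ∈ range (Q.p ^ Q.a), K y * (1 - Q.H u y - R.H u y)) ≤
      φ ^ 2 / P * ∑ y ∈ range (Q.p ^ Q.a), Q.F u y * R.F u y := by
    have e1 := sum_mul_classSum hQ.prime hu K (Q.H u) hKc
    have e2 := sum_mul_classSum hQ.prime hu K (R.H u) hKc
    have hbR : ∀ x, R.below u x = ∑ y ∈ range (Q.p ^ Q.a), same Q.p Q.a u x y * R.H u y := by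
      intro x; rw [below, hp, ha]
    calc P * ∑ y ∈ range (Q.p ^ Q.a), K y * (1 - Q.H u y - R.H u y)
        = ∑ y ∈ range (Q.p ^ Q.a), K y * (P - Q.below u y - R.below u y) := by
          simp only [mul_sub, sum_sub_distrib, mul_one, hbR]
          rw [show (fun y : ℕ => K y * Q.below u y) = fun y : ℕ =>
            K y * ∑ z ∈ range (Q.p ^ Q.a), same Q.p Q.a u y z * Q.H u z from rfl, e1, e2,
            ← sum_mul, mul_comm P]
      _ ≤ _ := by
          rw [mul_sum]
          refine sum_le_sum fun y _ => ?_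
          have b1 := hQ.below_le hu (y : ℤ)
          have b2 := hR.below_le hu' (y : ℤ)
          rw [hp] at b2
          simp only [hK, hA, hB, lam, hp]
          rw [← hP, ← hφ] at *
          set s := Q.below u (y : ℤ)
          set t := R.below u (y : ℤ)
          have hs0 : 0 ≤ s := sum_nonneg fun z _ =>
            mul_nonneg (same_nonneg ..) (hQ.H_nonneg (by omega) _)
          have ht0 : 0 ≤ t := sum_nonneg fun z _ =>
            mul_nonneg (same_nonneg ..) (hR.H_nonneg (by omega) _)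
          have key : (P - s - t) / ((P - s) * (P - t)) ≤ 1 / P := by
            rw [div_le_div_iff₀ (mul_pos (by linarith) (by linarith)) hP0]
            nlinarith [mul_nonneg hs0 ht0]
          have hF : 0 ≤ Q.F u y * R.F u y * φ ^ 2 :=
            mul_nonneg (mul_nonneg (hQ.F_nonneg u y) (hR.F_nonneg u y)) (sq_nonneg φ)
          have := mul_le_mul_of_nonneg_left key hF
          calc _ = Q.F u y * R.F u y * φ ^ 2 * ((P - s - t) / ((P - s) * (P - t))) := by
                field_simp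
            _ ≤ Q.F u y * R.F u y * φ ^ 2 * (1 / P) := this
            _ = _ := by field_simp
  have hcross' : ∑ y ∈ range (Q.p ^ Q.a), K y * (1 - Q.H u y - R.H u y) ≤
      (φ / P) ^ 2 * ∑ y ∈ range (Q.p ^ Q.a), Q.F u y * R.F u y := by
    refine le_of_mul_le_mul_left (hcross.trans_eq ?_) hP0
    field_simp
  calc ∑ y ∈ range (Q.p ^ Q.a), Q.H (u + 1) y * R.H (u + 1) y
      ≤ ∑ y ∈ range (Q.p ^ Q.a), (Q.H u y * R.H u y + K y * (1 - Q.H u y - R.H u y) +
          Q.F u y * R.H u y + R.F u y * Q.H u y) := by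
        refine sum_le_sum fun y _ => ?_
        rw [H_succ, H_succ]
        have hX := hQ.H_nonneg (Nat.le_succ_of_le hu) (y : ℤ)
        have hY := hR.H_nonneg (Nat.le_succ_of_le hu') (y : ℤ)
        have h1 : Q.F u y * Q.lam u y * R.H u y ≤ Q.F u y * R.H u y :=
          mul_le_mul_of_nonneg_right (mul_le_of_le_one_right (hQ.F_nonneg u y)
            (hQ.lam_mem hu y).2) hY
        have h2 : R.F u y * R.lam u y * Q.H u y ≤ R.F u y * Q.H u y :=
          mul_le_mul_of_nonneg_right (mul_le_of_le_one_right (hR.F_nonneg u y)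
            (hR.lam_mem hu' y).2) hX
        have hneg : (A y * B y - A y - B y) * (Q.H u y * R.H u y) ≤ 0 := by
          refine mul_nonpos_of_nonpos_of_nonneg ?_ (mul_nonneg hX hY)
          nlinarith [hA01 (y : ℤ), hB01 (y : ℤ)]
        simp only [hA, hB, hK] at hneg ⊢
        linarith
    _ ≤ _ := by
        simp only [sum_add_distrib]
        linarith

open Classical in
/-- The correlation of two systems is at most the averaged one times `p / (p - 1)` at unequal
exponents. -/
theorem Ok.corr_le (hQ : Q.Ok) (hR : R.Ok) (hp : R.p = Q.p) (ha : R.a = Q.a) :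
    ∑ y ∈ range (Q.p ^ Q.a), Q.H (Q.a + 1) y * R.H (Q.a + 1) y ≤
      ∑ i ∈ Q.T, ∑ k ∈ R.T, Q.f i * R.f k * locW Q.p Q.a (Q.v i) (R.v k) (Q.c i) (R.c k) := by
  set φ : ℕ → ℝ := fun u => ((Q.p ^ u).totient : ℝ) with hφ
  have main : ∀ u, u ≤ Q.a + 1 → ∑ y ∈ range (Q.p ^ Q.a), Q.H u y * R.H u y ≤
      ∑ i ∈ Q.T.filter (fun i => Q.v i < u), ∑ k ∈ R.T.filter (fun k => R.v k < u),
        Q.f i * R.f k * locW Q.p Q.a (Q.v i) (R.v k) (Q.c i) (R.c k) := by
    intro u hu
    induction u with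
    | zero => simp [H]
    | succ u ih =>
      have hua : u ≤ Q.a := by omega
      refine (hQ.corr_step hR hp ha hua).trans ?_
      have t1 : (φ u / (Q.p : ℝ) ^ u) ^ 2 * ∑ y ∈ range (Q.p ^ Q.a), Q.F u y * R.F u y =
          ∑ i ∈ Q.T.filter (fun i => Q.v i = u), ∑ k ∈ R.T.filter (fun k => R.v k = u),
            Q.f i * R.f k * locW Q.p Q.a (Q.v i) (R.v k) (Q.c i) (R.c k) := by
        simp only [F, sum_mul_sum]
        rw [sum_comm, mul_sum]
        refine sum_congr rfl fun i hi => ?_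
        rw [sum_comm, mul_sum]
        refine sum_congr rfl fun k hk => ?_
        have hinner : ∑ y ∈ range (Q.p ^ Q.a), Q.f i * same Q.p Q.a u (y : ℤ) (Q.c i) *
            (R.f k * same R.p R.a u (y : ℤ) (R.c k)) =
            Q.f i * R.f k * (same Q.p Q.a u (Q.c i) (R.c k) * (Q.p : ℝ) ^ u) := by
          rw [← sum_same hQ.prime hua (Q.c i)]
          simp only [mul_sum]
          refine sum_congr rfl fun y _ => ?_
          rw [hp, ha]
          by_cases h : same Q.p Q.a u (y : ℤ) (Q.c i) = 1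
          · rw [h, same_congr h (R.c k)]; ring
          · have h0 : same Q.p Q.a u (y : ℤ) (Q.c i) = 0 := by
              unfold same at h ⊢
              split_ifs with hd
              · rw [if_pos hd] at h; exact absurd rfl h
              · rfl
            rw [h0]; ring
        rw [hinner, locW, (mem_filter.1 hi).2, (mem_filter.1 hk).2, max_self, if_pos rfl, hφ]
        have hP0 : (Q.p : ℝ) ^ u ≠ 0 := pow_ne_zero _ (by exact_mod_cast hQ.prime.ne_zero)
        field_simp
      have t2 : ∑ y ∈ range (Q.p ^ Q.a), Q.F u y * R.H u y ≤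
          ∑ i ∈ Q.T.filter (fun i => Q.v i = u), ∑ k ∈ R.T.filter (fun k => R.v k < u),
            Q.f i * R.f k * locW Q.p Q.a (Q.v i) (R.v k) (Q.c i) (R.c k) := by
        simp only [F, R.H_eq_sum, sum_mul_sum]
        rw [sum_comm]
        refine sum_le_sum fun i hi => ?_
        rw [sum_comm]
        refine sum_le_sum fun k hk => ?_
        obtain ⟨hkT, hkv⟩ := mem_filter.1 hk
        obtain ⟨hiT, hiv⟩ := mem_filter.1 hi
        have h := hR.sum_same_mul_ker_le hkT (Nat.le_of_lt hkv) (Q.c i)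
        rw [hp, ha] at h
        have h' := mul_le_mul_of_nonneg_left h
          (mul_nonneg (hQ.nonneg i hiT) (hR.nonneg k hkT))
        rw [mul_sum] at h'
        refine (le_of_eq (sum_congr rfl fun y _ => by ring)).trans (h'.trans (le_of_eq ?_))
        rw [locW, hiv, max_eq_left hkv.le, min_eq_right hkv.le, if_neg (by omega)]
      have t3 : ∑ y ∈ range (Q.p ^ Q.a), R.F u y * Q.H u y ≤
          ∑ i ∈ Q.T.filter (fun i => Q.v i < u), ∑ k ∈ R.T.filter (fun k => R.v k = u),
            Q.f i * R.f k * locW Q.p Q.a (Q.v i) (R.v k) (Q.c i) (R.c k) := by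
        simp only [F, Q.H_eq_sum, sum_mul_sum]
        rw [sum_comm]
        refine (le_of_eq (sum_congr rfl fun k _ => sum_comm)).trans ?_
        rw [sum_comm]
        refine sum_le_sum fun i hi => ?_
        refine sum_le_sum fun k hk => ?_
        obtain ⟨hkT, hkv⟩ := mem_filter.1 hk
        obtain ⟨hiT, hiv⟩ := mem_filter.1 hi
        have h := hQ.sum_same_mul_ker_le hiT (Nat.le_of_lt hiv) (R.c k)
        have h' := mul_le_mul_of_nonneg_left h
          (mul_nonneg (hQ.nonneg i hiT) (hR.nonneg k hkT))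
        rw [mul_sum] at h'
        refine (le_of_eq (sum_congr rfl fun y _ => by rw [hp, ha]; ring)).trans
          (h'.trans (le_of_eq ?_))
        rw [locW, hkv, max_eq_right hiv.le, min_eq_left hiv.le, if_neg (by omega),
          same_comm _ _ _ (R.c k)]
      have hrec := ih (by omega)
      have eQ : Q.T.filter (fun i => Q.v i < u + 1) =
          Q.T.filter (fun i => Q.v i < u) ∪ Q.T.filter (fun i => Q.v i = u) := by
        rw [← filter_or]; exact filter_congr fun i _ => by omega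
      have eR : R.T.filter (fun i => R.v i < u + 1) =
          R.T.filter (fun i => R.v i < u) ∪ R.T.filter (fun i => R.v i = u) := by
        rw [← filter_or]; exact filter_congr fun i _ => by omega
      rw [eQ, eR, sum_union (disjoint_filter.2 fun i _ h h' => by omega)]
      simp only [sum_union (disjoint_filter.2 fun i _ (h : R.v i < u) (h' : R.v i = u) => by omega),
        sum_add_distrib]
      simp only [hφ] at t1
      linarith
  have h := main (Q.a + 1) le_rfl
  rwa [filter_true_of_mem fun i hi => Nat.lt_succ_of_le (hQ.le i hi),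
    filter_true_of_mem fun k hk => Nat.lt_succ_of_le (ha ▸ hR.le k hk)] at h

end Loc

end Vale.Agent.P028.Full.Lifted
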