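import Vale.Agent.P028.Full.Lifted.Bottom
import Vale.Agent.P028.Full.Lifted.Prime

/-!
The translates of one digit of an item of the lifted system.

Averaged over the `p` translates by multiples of `p ^ (a - v)`, an item of exponent `v` is at most
`(1 + 4 / p ^ 2) * (1 - 1 / p)` on its coset, whatever the other items are.
-/

noncomputable section

namespace Vale.Agent.P028.Full.Lifted

open Finset

/-- The `p` translates of one digit meet each subcoset once. -/
theorem sum_same_digit {p a u : ℕ} (hp : p.Prime) (hu : u + 1 ≤ a) (x y : ℤ) :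
    ∑ j ∈ range p, same p a u (x + (j : ℤ) * (p ^ (a - (u + 1)) : ℕ)) y = same p a (u + 1) x y := by
  set d : ℕ := p ^ (a - (u + 1)) with hd
  have hd0 : 0 < d := pow_pos hp.pos _
  have hpd : p ^ (a - u) = d * p := by
    rw [hd, ← pow_succ]
    congr 1
    omega
  unfold same
  rw [sum_boole, ← hd, hpd]
  by_cases h : (d : ℤ) ∣ x - y
  · obtain ⟨w, hw⟩ := h
    rw [if_pos ⟨w, hw⟩]
    have he : (range p).filter (fun j : ℕ => ((d * p : ℕ) : ℤ) ∣ x + (j : ℤ) * d - y) =
        (range (p * 1)).filter (fun j : ℕ => (p : ℤ) ∣ (j : ℤ) - (-w)) := by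
      rw [Nat.mul_one]
      refine filter_congr fun j _ => ?_
      have e : x + (j : ℤ) * d - y = (d : ℤ) * ((j : ℤ) - (-w)) := by linear_combination hw
      rw [e, Nat.cast_mul]
      exact Int.mul_dvd_mul_iff_left (by exact_mod_cast hd0.ne')
    rw [he, card_filter_dvd_sub p 1 hp.pos]
    norm_num
  · rw [if_neg h, filter_false_of_mem]
    · simp
    intro j _ hj
    refine h ?_
    have h1 : (d : ℤ) ∣ x + (j : ℤ) * d - y :=
      (Int.natCast_dvd_natCast.2 (dvd_mul_right d p)).trans hj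
    have h2 : (d : ℤ) ∣ (j : ℤ) * d := dvd_mul_left _ _
    have := h1.sub h2
    rwa [show x + (j : ℤ) * d - y - (j : ℤ) * d = x - y by ring] at this

namespace Loc

variable {ι : Type*} {Q : Loc ι}

/-- The total of the exponents below `u` has sum at most `∑_{w < u} φ (p ^ w)`. -/
theorem Ok.sum_H_le (hQ : Q.Ok) {u : ℕ} :
    ∑ y ∈ range (Q.p ^ Q.a), Q.H u y ≤ ∑ w ∈ range u, ((Q.p ^ w).totient : ℝ) := by
  calc ∑ y ∈ range (Q.p ^ Q.a), Q.H u y
      = ∑ k ∈ Q.T.filter (fun k => Q.v k < u), Q.f k * ((Q.p ^ Q.v k).totient : ℝ) := by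
        simp only [Q.H_eq_sum u]
        rw [sum_comm]
        exact sum_congr rfl fun k hk => by rw [← mul_sum, hQ.sum_ker (mem_filter.1 hk).1]
    _ = ∑ w ∈ range u, (∑ k ∈ (Q.T.filter (fun k => Q.v k < u)).filter (fun k => Q.v k = w),
          Q.f k) * ((Q.p ^ w).totient : ℝ) := by
        rw [← sum_fiberwise_of_maps_to (g := Q.v) (t := range u)
          (fun k hk => mem_range.2 (mem_filter.1 hk).2)]
        refine sum_congr rfl fun w _ => ?_
        rw [sum_mul]
        exact sum_congr rfl fun k hk => by rw [(mem_filter.1 hk).2]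
    _ ≤ _ := sum_le_sum fun w _ => mul_le_of_le_one_left (Nat.cast_nonneg _) (le_trans
          (sum_le_sum_of_subset_of_nonneg (fun k hk => mem_filter.2
            ⟨(mem_filter.1 (mem_filter.1 hk).1).1, (mem_filter.1 hk).2⟩)
            (fun k hk _ => hQ.nonneg k (mem_filter.1 hk).1)) (hQ.total w))

/-- The translates of one digit of an item average to at most `(1 + 4 / p ^ 2) (1 - 1 / p)` on its
coset. -/
theorem Ok.sum_ker_digit_le (hQ : Q.Ok) {k : ι} (hk : k ∈ Q.T) {u : ℕ} (hv : Q.v k = u + 1)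
    (x : ℤ) :
    ∑ j ∈ range Q.p, Q.ker k (x + (j : ℤ) * (Q.p ^ (Q.a - (u + 1)) : ℕ)) ≤
      (1 + 4 / (Q.p : ℝ) ^ 2) * ((Q.p : ℝ) - 1) * same Q.p Q.a (u + 1) x (Q.c k) := by
  have hp := hQ.prime
  have hua : u + 1 ≤ Q.a := hv ▸ hQ.le k hk
  set d : ℕ := Q.p ^ (Q.a - (u + 1)) with hd
  set z : ℕ → ℤ := fun j => x + (j : ℤ) * d with hz
  have hsame : ∀ j, same Q.p Q.a (u + 1) (z j) x = 1 := fun j =>
    if_pos ⟨(j : ℤ), by simp only [hz, hd]; push_cast; ring⟩
  set A : ℤ → ℝ := fun y => Q.F u y * Q.lam u y with hA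
  have hlam := fun y => hQ.lam_mem (u := u) (by omega) y
  have hH0 := fun y => hQ.H_nonneg (u := u) (by omega) y
  have hA0 : ∀ y, 0 ≤ A y := fun y => mul_nonneg (hQ.F_nonneg u y) (hlam y).1
  have hA1 : ∀ y, A y ≤ 1 := fun y => mul_le_one₀ (hQ.F_le_one u y) (hlam y).1 (hlam y).2
  set Lam := ∑ j ∈ range Q.p, A (z j) with hLam
  have hLam1 : Lam ≤ 1 := by
    calc Lam ≤ ∑ j ∈ range Q.p, Q.F u (z j) :=
          sum_le_sum fun j _ => mul_le_of_le_one_right (hQ.F_nonneg u _) (hlam _).2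
      _ = ∑ i ∈ Q.T.filter (fun i => Q.v i = u),
            Q.f i * same Q.p Q.a (u + 1) x (Q.c i) := by
          simp only [Loc.F]
          rw [sum_comm]
          refine sum_congr rfl fun i _ => ?_
          rw [← mul_sum, hz, hd, sum_same_digit hp hua]
      _ ≤ _ := (sum_le_sum fun i hi =>
          mul_le_of_le_one_right (hQ.nonneg i (mem_filter.1 hi).1) (same_le_one ..)).trans
          (hQ.total u)
  -- each line sees the level below
  have hline : Lam ≤ ∑ j ∈ range Q.p, Q.H (u + 1) (z j) := by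
    refine sum_le_sum fun j _ => ?_
    rw [Q.H_succ]
    show A (z j) ≤ Q.H u (z j) + A (z j) * (1 - Q.H u (z j))
    nlinarith [mul_nonneg (hH0 (z j)) (sub_nonneg.2 (hA1 (z j)))]
  -- the mass below in the coset
  have hF : Q.below (u + 1) x ≤ Lam * (Q.p : ℝ) ^ u + (Q.p : ℝ) ^ u / Q.p := by
    have h1 : Q.below (u + 1) x ≤ (∑ y ∈ range (Q.p ^ Q.a), same Q.p Q.a (u + 1) x y * A y) +
        ∑ y ∈ range (Q.p ^ Q.a), Q.H u y := by
      rw [Loc.below, ← sum_add_distrib]
      refine sum_le_sum fun y _ => ?_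
      rw [Q.H_succ]
      show same Q.p Q.a (u + 1) x y * (Q.H u y + A y * (1 - Q.H u y)) ≤ _
      have hs0 := same_nonneg Q.p Q.a (u + 1) x y
      have hs1 := same_le_one Q.p Q.a (u + 1) x y
      nlinarith [mul_nonneg hs0 (mul_nonneg (hA0 y) (hH0 y)),
        mul_nonneg (sub_nonneg.2 hs1) (hH0 y)]
    have h2 : ∑ y ∈ range (Q.p ^ Q.a), same Q.p Q.a (u + 1) x y * A y =
        Lam * (Q.p : ℝ) ^ u := by
      calc ∑ y ∈ range (Q.p ^ Q.a), same Q.p Q.a (u + 1) x y * A y
          = ∑ y ∈ range (Q.p ^ Q.a), ∑ j ∈ range Q.p, same Q.p Q.a u (z j) y * A (z j) := by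
            refine sum_congr rfl fun y _ => ?_
            rw [← sum_same_digit hp hua, sum_mul]
            refine sum_congr rfl fun j _ => ?_
            show same Q.p Q.a u (z j) y * A y = _
            by_cases h : same Q.p Q.a u (z j) y = 1
            · simp only [hA]
              rw [Q.F_congr h, Q.lam_congr h]
            · have : same Q.p Q.a u (z j) y = 0 := by
                unfold same at h ⊢
                split_ifs with hd'
                · rw [if_pos hd'] at h; exact absurd rfl h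
                · rfl
              rw [this]; ring
        _ = _ := by
            rw [sum_comm, hLam, sum_mul]
            refine sum_congr rfl fun j _ => ?_
            rw [← sum_mul, sum_congr rfl fun (y : ℕ) _ => same_comm Q.p Q.a u (z j) (y : ℤ),
              sum_same hp (by omega), mul_comm]
    have h3 : ∑ y ∈ range (Q.p ^ Q.a), Q.H u y ≤ (Q.p : ℝ) ^ u / Q.p := by
      rcases u with _ | w
      · simp [Loc.H]
      · refine hQ.sum_H_le.trans (le_of_eq ?_)
        rw [sum_totient_pow hp w, pow_succ]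
        field_simp [show (Q.p : ℝ) ≠ 0 from by exact_mod_cast hp.ne_zero]
    linarith
  have hlamv := hQ.lam_mem (u := u + 1) hua x
  have hmass : Q.lam (u + 1) x * ((Q.p : ℝ) * (Q.p : ℝ) ^ u - Q.below (u + 1) x) =
      ((Q.p : ℝ) - 1) * (Q.p : ℝ) ^ u := by
    have hb := hQ.below_le (u := u + 1) hua x
    have hphi : (0 : ℝ) < (Q.p ^ (u + 1)).totient := by
      exact_mod_cast Nat.totient_pos.2 (pow_pos hp.pos _)
    have hne : (Q.p : ℝ) ^ (u + 1) - Q.below (u + 1) x ≠ 0 := by linarith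
    rw [Loc.lam, show (Q.p : ℝ) * (Q.p : ℝ) ^ u = (Q.p : ℝ) ^ (u + 1) by ring, div_mul_cancel₀ _ hne,
      Nat.totient_prime_pow_succ hp, Nat.cast_mul, Nat.cast_pow, Nat.cast_sub hp.one_le,
      Nat.cast_one, mul_comm]
  have harith := line_arith (p := (Q.p : ℝ)) (by exact_mod_cast hp.two_le)
    (pow_pos (by exact_mod_cast hp.pos) u) hlamv.1 hLam1 hmass hF
  have hker : ∀ j, Q.ker k (z j) =
      same Q.p Q.a (u + 1) x (Q.c k) * Q.lam (u + 1) x * (1 - Q.H (u + 1) (z j)) := fun j => by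
    rw [Loc.ker, hv, same_congr (hsame j), Q.lam_congr (hsame j)]
  calc ∑ j ∈ range Q.p, Q.ker k (z j)
      = same Q.p Q.a (u + 1) x (Q.c k) *
          (Q.lam (u + 1) x * ((Q.p : ℝ) - ∑ j ∈ range Q.p, Q.H (u + 1) (z j))) := by
        rw [sum_congr rfl fun j _ => hker j, ← mul_sum, sum_sub_distrib, sum_const, card_range,
          nsmul_eq_mul, mul_one]
        ring
    _ ≤ same Q.p Q.a (u + 1) x (Q.c k) * ((1 + 4 / (Q.p : ℝ) ^ 2) * ((Q.p : ℝ) - 1)) :=
        mul_le_mul_of_nonneg_left ((mul_le_mul_of_nonneg_left (by linarith) hlamv.1).trans harith)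
          (same_nonneg ..)
    _ = _ := mul_comm _ _

end Loc

end Vale.Agent.P028.Full.Lifted
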