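import Vale.Agent.P028.Full.Lifted.Prime

/-!
An item of a lifted system on a sublattice.

The kernels of an item at the primes keep their means whatever the lower coordinates are and are
below the indicators.  So prescribing the coset at the primes of a set `A` costs the factor
`p / (p - 1) * p ^ (w - v)` at each of them, whatever the other items are.
-/

noncomputable section

namespace Vale.Agent.P028.Full.Lifted

open Finset

/-- The sum over all configurations of the coordinates below `m`. -/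
def cfgSum (N : ℕ → ℕ) : ℕ → ((ℕ → ℕ) → ℝ) → (ℕ → ℕ) → ℝ
  | 0, F, ω => F ω
  | m + 1, F, ω => cfgSum N m (fun ω => ∑ x ∈ range (N m), F (Function.update ω m x)) ω

theorem cfgSum_mono {N : ℕ → ℕ} {m : ℕ} {F G : (ℕ → ℕ) → ℝ} (h : ∀ ω, F ω ≤ G ω) :
    ∀ ω, cfgSum N m F ω ≤ cfgSum N m G ω := by
  induction m generalizing F G with
  | zero => exact h
  | succ m ih => exact fun ω => ih (fun ω => sum_le_sum fun x _ => h _) ω

theorem cfgSum_const_mul {N : ℕ → ℕ} {m : ℕ} (a : ℝ) {F : (ℕ → ℕ) → ℝ} :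
    ∀ ω, cfgSum N m (fun ω => a * F ω) ω = a * cfgSum N m F ω := by
  induction m generalizing F with
  | zero => exact fun _ => rfl
  | succ m ih =>
    intro ω
    simp only [cfgSum, ← mul_sum]
    exact ih ω

/-- A product of lower-dependent kernels with bounded sums against a test function. -/
theorem cfgSum_prod_le (N : ℕ → ℕ) (g : ℕ → (ℕ → ℕ) → ℕ → ℝ) (χ : ℕ → ℕ → ℝ) (u : ℕ → ℝ)
    (hg : ∀ l ω x, 0 ≤ g l ω x) (hχ : ∀ l x, 0 ≤ χ l x) (hu : ∀ l, 0 ≤ u l)
    (hcg : ∀ l ω ω', (∀ i < l, ω i = ω' i) → g l ω = g l ω')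
    (h : ∀ l ω, ∑ x ∈ range (N l), g l ω x * χ l x ≤ u l) :
    ∀ m ω, cfgSum N m (fun ω => ∏ l ∈ range m, (g l ω (ω l) * χ l (ω l))) ω ≤
      ∏ l ∈ range m, u l := by
  intro m
  induction m with
  | zero => intro ω; simp [cfgSum]
  | succ m ih =>
    intro ω
    have hupd : ∀ (z : ℕ → ℕ) (y : ℕ),
        ∏ l ∈ range (m + 1), (g l (Function.update z m y) (Function.update z m y l) *
            χ l (Function.update z m y l)) =
          (∏ l ∈ range m, (g l z (z l) * χ l (z l))) * (g m z y * χ m y) := by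
      intro z y
      rw [prod_range_succ, Function.update_self,
        hcg m _ z fun i hi => Function.update_of_ne (by omega) _ _]
      congr 1
      refine prod_congr rfl fun l hl => ?_
      have hlm := mem_range.1 hl
      rw [Function.update_of_ne hlm.ne, hcg l _ z fun i hi => Function.update_of_ne (by omega) _ _]
    simp only [cfgSum, hupd, ← mul_sum]
    refine le_trans (cfgSum_mono (G := fun z => u m * ∏ l ∈ range m, (g l z (z l) * χ l (z l)))
      (fun z => ?_) ω) ?_
    · rw [mul_comm (u m)]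
      exact mul_le_mul_of_nonneg_left (h m z) (prod_nonneg fun l _ => mul_nonneg (hg l _ _) (hχ l _))
    · rw [cfgSum_const_mul, prod_range_succ, mul_comm (∏ l ∈ range m, u l)]
      exact mul_le_mul_of_nonneg_left (ih ω) (hu m)

/-- A bound from each side gives the geometric mean, hence a linear bound with a gain. -/
theorem le_sqrt_mul_add {X A B e : ℝ} (hA0 : 0 ≤ A) (hB0 : 0 ≤ B) (he : 0 ≤ e)
    (hA : X ≤ e * A) (hB : X ≤ B) : X ≤ Real.sqrt e * ((A + B) / 2) := by
  rcases le_or_gt X 0 with hX | hX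
  · exact hX.trans (by positivity)
  have h1 : X ^ 2 ≤ e * A * B := by
    rw [sq]
    exact mul_le_mul hA hB hX.le (mul_nonneg he hA0)
  have h2 : e * A * B ≤ (Real.sqrt e * ((A + B) / 2)) ^ 2 := by
    rw [mul_pow, Real.sq_sqrt he, mul_assoc]
    refine mul_le_mul_of_nonneg_left ?_ he
    nlinarith [sq_nonneg (A - B)]
  exact le_of_pow_le_pow_left₀ two_ne_zero (by positivity) (h1.trans h2)

namespace Loc

variable {ι : Type*} {Q : Loc ι}

/-- Prescribing a coset of level `w` costs `p / (p - 1) * p ^ w / p ^ v`. -/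
theorem Ok.sum_ker_mul_same_le (hQ : Q.Ok) {k : ι} (hk : k ∈ Q.T) {w : ℕ} (hw : w ≤ Q.a) (c : ℤ) :
    ∑ y ∈ range (Q.p ^ Q.a), Q.ker k y * same Q.p Q.a w (y : ℤ) c ≤
      (Q.p : ℝ) / ((Q.p : ℝ) - 1) * ((Q.p : ℝ) ^ w / (Q.p : ℝ) ^ Q.v k) * ((Q.p ^ Q.v k).totient : ℝ) := by
  have hp := hQ.prime
  have hp2 : (2 : ℝ) ≤ Q.p := by exact_mod_cast hp.two_le
  calc ∑ y ∈ range (Q.p ^ Q.a), Q.ker k y * same Q.p Q.a w (y : ℤ) c
      ≤ ∑ y ∈ range (Q.p ^ Q.a), same Q.p Q.a w (y : ℤ) c :=
        sum_le_sum fun y _ => mul_le_of_le_one_left (same_nonneg ..)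
          ((hQ.ker_le_same hk y).trans (same_le_one ..))
    _ = (Q.p : ℝ) ^ w := sum_same hp hw c
    _ ≤ _ := by
        rcases hv : Q.v k with _ | v
        · have h1 : (1 : ℝ) ≤ (Q.p : ℝ) / ((Q.p : ℝ) - 1) := by
            rw [le_div_iff₀ (by linarith)]
            linarith
          simpa using le_mul_of_one_le_left (pow_nonneg (by linarith : (0 : ℝ) ≤ Q.p) w) h1
        · rw [Nat.totient_prime_pow_succ hp, Nat.cast_mul, Nat.cast_pow, Nat.cast_sub hp.one_le,
            Nat.cast_one, pow_succ]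
          have h1 : (Q.p : ℝ) - 1 ≠ 0 := by linarith
          have h2 : (Q.p : ℝ) ≠ 0 := by linarith
          refine le_of_eq ?_
          field_simp

end Loc

end Vale.Agent.P028.Full.Lifted
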